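import Vale.Agent.P024.H539.Amb
import Vale.Agent.P024.M3.Spec

/-!
P024, block M3 (A), literal form.
-/

namespace Vale.Agent.P024.H539

open IsDedekindDomain NumberField
open scoped NumberField

set_option linter.unusedSectionVars false

variable {F L : Type*} [Field F] [NumberField F] [Field L] [NumberField L] [Algebra F L]

/-- Ramification index one: the valuations agree. -/
theorem val_eq_of_unr {w : HeightOneSpectrum (𝓞 L)} (h : M3.Unr F w)
    {P : HeightOneSpectrum (𝓞 F)} (hP : w.asIdeal.LiesOver P.asIdeal) (x : F) :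
    w.valuation L (algebraMap F L x) = P.valuation F x := by
  obtain ⟨y, hy⟩ := h
  have := hP
  have h1 := HeightOneSpectrum.valuation_liesOver L P w (K := F)
  rw [← h1 y] at hy
  have hy0 : P.valuation F y ≠ 0 := by
    intro h0
    rw [h0] at hy
    rcases Nat.eq_zero_or_pos (P.asIdeal.ramificationIdx' w.asIdeal) with he | he
    · rw [he, pow_zero] at hy
      have := WithZero.exp_injective (hy.symm.trans WithZero.exp_zero.symm)
      omega
    · rw [zero_pow he.ne'] at hy
      exact WithZero.exp_ne_zero hy.symm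
  have h2 : (P.asIdeal.ramificationIdx' w.asIdeal : ℤ) * WithZero.log (P.valuation F y) = -1 := by
    have h3 := congrArg WithZero.log hy
    rw [WithZero.log_pow, WithZero.log_exp, nsmul_eq_mul] at h3
    exact h3
  have h4 : (P.asIdeal.ramificationIdx' w.asIdeal : ℤ) ∣ 1 := by
    refine ⟨-WithZero.log (P.valuation F y), ?_⟩
    linarith
  have h5 : P.asIdeal.ramificationIdx' w.asIdeal = 1 := by
    have h6 : P.asIdeal.ramificationIdx' w.asIdeal ∣ 1 := by exact_mod_cast h4
    exact Nat.dvd_one.1 h6
  rw [← h1 x, h5, pow_one]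

/-- The kernel of `x ↦ σ x / x` is `Fˣ`. -/
theorem ker_dd [IsGalois F L] {σ : L ≃ₐ[F] L} (hσ : ∀ g, g ∈ Subgroup.zpowers σ) :
    (M3.dd σ).ker = FU F L := by
  ext x
  constructor
  · intro hx
    have h1 : σ (x : L) = x := by
      have h2 : M3.dd σ x = 1 := hx
      have h3 : Units.map (σ : L →* L) x / x = 1 := h2
      rw [div_eq_one] at h3
      exact congrArg Units.val h3
    have h4 : ∀ g : L ≃ₐ[F] L, g (x : L) = x := by
      intro g
      have h5 : Subgroup.zpowers σ ≤ MulAction.stabilizer (L ≃ₐ[F] L) (x : L) := by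
        rw [Subgroup.zpowers_le]
        exact h1
      exact h5 (hσ g)
    have h6 : (x : L) ∈ (⊥ : IntermediateField F L) := (IsGalois.mem_bot_iff_fixed (x : L)).2 h4
    obtain ⟨y, hy⟩ := IntermediateField.mem_bot.1 h6
    have hy0 : y ≠ 0 := by
      rintro rfl
      rw [map_zero] at hy
      exact x.ne_zero hy.symm
    exact ⟨Units.mk0 y hy0, Units.ext hy⟩
  · rintro ⟨c, rfl⟩
    change Units.map (σ : L →* L) _ / _ = 1
    rw [div_eq_one]
    apply Units.ext
    exact σ.commutes (c : F)

/-- **Block (A) of M3, literally.** -/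
theorem propA : M3.PropA := by
  intro F L _ _ _ _ _ _ σ hσ p hp hun v hpv hfin
  have h1 : ∀ x, ((M3.dd σ x : Lˣ) : L) = σ (x : L) / x := by
    intro x
    change ((Units.map (σ : L →* L) x / x : Lˣ) : L) = _
    rw [Units.val_div_eq_div_val]
    rfl
  unfold M3.e1 at hfin ⊢
  rw [ker_dd hσ] at hfin ⊢
  have h2 := amb hσ h1 p v hpv
    (fun w hw P hP x => val_eq_of_unr (hun w hw) hP x)
    (U := M3.UU L v) (B := M3.RR L p)
    (fun x => by
      constructor
      · intro hx w hw
        exact hx w (fun h => hw ⟨h.symm⟩)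
      · intro hx w hw
        exact hx w (fun h => hw h.over.symm))
    (fun x => Iff.rfl) hfin
  have h3 : Nat.card (ClassGroup (𝓞 F)) = classNumber F := Nat.card_eq_fintype_card
  rw [← h3]
  exact h2.1

end Vale.Agent.P024.H539
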