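import Vale.Agent.P024.H539.Gal
import Vale.Agent.P024.H157.Cls

/-!
P024, block M3 (a): ambiguous elements, comparison of the units outside a set of primes
with the elements prime to the ramified primes.
-/

namespace Vale.Agent.P024.H539

open IsDedekindDomain NumberField FractionalIdeal
open scoped Pointwise nonZeroDivisors NumberField

set_option linter.unusedSectionVars false

variable {F L : Type*} [Field F] [NumberField F] [Field L] [NumberField L] [Algebra F L]

/-- The elements of `Lˣ` which have valuation one at all primes of `S`. -/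
def VU (S : Set (HeightOneSpectrum (𝓞 L))) : Subgroup Lˣ where
  carrier := {x | ∀ w ∈ S, w.valuation L (x : L) = 1}
  one_mem' := fun w _ => by simp
  mul_mem' := fun {x y} hx hy w hw => by
    rw [Units.val_mul, map_mul, hx w hw, hy w hw, one_mul]
  inv_mem' := fun {x} hx w hw => by
    rw [Units.val_inv_eq_inv_val, map_inv₀, hx w hw, inv_one]

theorem mem_VU {S : Set (HeightOneSpectrum (𝓞 L))} {x : Lˣ} :
    x ∈ VU S ↔ ∀ w ∈ S, w.valuation L (x : L) = 1 := Iff.rfl

/-- Only finitely many primes have valuation different from one. -/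
theorem finite_val (x : Lˣ) :
    {w : HeightOneSpectrum (𝓞 L) | w.valuation L (x : L) ≠ 1}.Finite := by
  have h1 := HeightOneSpectrum.Support.finite (𝓞 L) (x : L)
  have h2 := HeightOneSpectrum.Support.finite (𝓞 L) ((x⁻¹ : Lˣ) : L)
  refine (h1.union h2).subset fun w hw => ?_
  rcases lt_or_gt_of_ne hw with h | h
  · right
    change 1 < w.valuation L ((x⁻¹ : Lˣ) : L)
    rw [Units.val_inv_eq_inv_val, map_inv₀]
    exact (one_lt_inv₀ (zero_lt_iff.2 (by simp))).2 h
  · left
    exact h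

/-- The primes of `L` over a prime of `F` exist. -/
theorem exists_over (L : Type*) [Field L] [NumberField L] [Algebra F L]
    (P : HeightOneSpectrum (𝓞 F)) :
    ∃ w : HeightOneSpectrum (𝓞 L), w.asIdeal.LiesOver P.asIdeal := by
  have := P.isPrime
  obtain ⟨Q, hQ, hQP⟩ := (inferInstance : Nonempty (Ideal.primesOver P.asIdeal (𝓞 L)))
  refine ⟨⟨Q, hQ, ?_⟩, hQP⟩
  rintro rfl
  apply P.ne_bot
  rw [hQP.over, Ideal.under_bot]

/-- Every prime of `L` lies over a prime of `F`. -/
theorem exists_under (F : Type*) [Field F] [NumberField F] [Algebra F L]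
    (w : HeightOneSpectrum (𝓞 L)) :
    ∃ P : HeightOneSpectrum (𝓞 F), w.asIdeal.LiesOver P.asIdeal := by
  have := w.isPrime
  refine ⟨⟨w.asIdeal.under (𝓞 F), inferInstance, ?_⟩, ⟨rfl⟩⟩
  intro h
  exact w.ne_bot (Ideal.eq_bot_of_comap_eq_bot h)

/-- The prime below is unique. -/
theorem under_unique {w : HeightOneSpectrum (𝓞 L)} {P P' : HeightOneSpectrum (𝓞 F)}
    (h : w.asIdeal.LiesOver P.asIdeal) (h' : w.asIdeal.LiesOver P'.asIdeal) : P = P' := by
  apply HeightOneSpectrum.ext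
  rw [h.over, h'.over]

theorem mv_over [IsGalois F L] (g : L ≃ₐ[F] L) {w : HeightOneSpectrum (𝓞 L)} {P : HeightOneSpectrum (𝓞 F)}
    (h : w.asIdeal.LiesOver P.asIdeal) : (mv g w).asIdeal.LiesOver P.asIdeal := by
  rw [mv_asIdeal]
  have := h
  have h2 : IsGaloisGroup (L ≃ₐ[F] L) (𝓞 F) (𝓞 L) := inferInstance
  have h3 : SMulCommClass (L ≃ₐ[F] L) (𝓞 F) (𝓞 L) := h2.commutes
  exact Ideal.LiesOver.smul g

/-- The Galois group is transitive on the primes over `P`. -/
theorem exists_mv [IsGalois F L] {w w' : HeightOneSpectrum (𝓞 L)} {P : HeightOneSpectrum (𝓞 F)}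
    (h : w.asIdeal.LiesOver P.asIdeal) (h' : w'.asIdeal.LiesOver P.asIdeal) :
    ∃ g : L ≃ₐ[F] L, mv g w = w' := by
  have := w.isPrime
  have := w'.isPrime
  obtain ⟨g, hg⟩ := Ideal.exists_smul_eq_of_isGaloisGroup P.asIdeal w.asIdeal w'.asIdeal
    (L ≃ₐ[F] L)
  exact ⟨g, HeightOneSpectrum.ext hg⟩


/-- A chosen prime of `L` over `P`. -/
noncomputable def ov (L : Type*) [Field L] [NumberField L] [Algebra F L]
    (P : HeightOneSpectrum (𝓞 F)) : HeightOneSpectrum (𝓞 L) :=
  (exists_over L P).choose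

theorem ov_over (P : HeightOneSpectrum (𝓞 F)) : (ov L P).asIdeal.LiesOver P.asIdeal :=
  (exists_over L P).choose_spec

theorem ov_injective : Function.Injective (ov (F := F) L) := by
  intro P P' h
  have h1 := ov_over (L := L) P
  rw [h] at h1
  exact under_unique h1 (ov_over (L := L) P')

open Classical in
/-- The exponent of `P` in the ideal attached to `b`. -/
noncomputable def ex (S : Set (HeightOneSpectrum (𝓞 L))) (b : Lˣ) (P : HeightOneSpectrum (𝓞 F)) :
    ℤ :=
  if ov L P ∈ S then -WithZero.log ((ov L P).valuation L (b : L)) else 0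

theorem ex_mul (S : Set (HeightOneSpectrum (𝓞 L))) (b c : Lˣ) (P : HeightOneSpectrum (𝓞 F)) :
    ex S (b * c) P = ex S b P + ex S c P := by
  unfold ex
  split_ifs with h
  · rw [Units.val_mul, map_mul, WithZero.log_mul (by simp) (by simp)]
    ring
  · rfl

theorem ex_one (S : Set (HeightOneSpectrum (𝓞 L))) (P : HeightOneSpectrum (𝓞 F)) :
    ex S (1 : Lˣ) P = 0 := by
  unfold ex
  split_ifs with h
  · simp
  · rfl

theorem ex_finite (S : Set (HeightOneSpectrum (𝓞 L))) (b : Lˣ) :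
    ∀ᶠ P : HeightOneSpectrum (𝓞 F) in Filter.cofinite, ex S b P = 0 := by
  rw [Filter.eventually_cofinite]
  refine ((finite_val b).preimage (ov_injective (F := F) (L := L)).injOn).subset fun P hP => ?_
  intro h1
  apply hP
  unfold ex
  split_ifs with h
  · rw [h1]; simp
  · rfl

/-- The ideal of `F` attached to `b`. -/
noncomputable def idl (S : Set (HeightOneSpectrum (𝓞 L))) (b : Lˣ) :
    FractionalIdeal (𝓞 F)⁰ F :=
  ∏ᶠ P : HeightOneSpectrum (𝓞 F), (P.asIdeal : FractionalIdeal (𝓞 F)⁰ F) ^ ex S b P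

theorem count_idl (S : Set (HeightOneSpectrum (𝓞 L))) (b : Lˣ) (P : HeightOneSpectrum (𝓞 F)) :
    count F P (idl S b) = ex S b P :=
  count_finprod F P _ (ex_finite S b)

theorem supp_finite (S : Set (HeightOneSpectrum (𝓞 L))) (b : Lˣ) :
    (Function.mulSupport fun P : HeightOneSpectrum (𝓞 F) =>
      (P.asIdeal : FractionalIdeal (𝓞 F)⁰ F) ^ ex S b P).Finite := by
  have h := ex_finite (F := F) S b
  rw [Filter.eventually_cofinite] at h
  refine h.subset fun P hP => ?_
  rw [Function.mem_mulSupport] at hP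
  intro h1
  apply hP
  rw [h1, zpow_zero]

theorem idl_mul (S : Set (HeightOneSpectrum (𝓞 L))) (b c : Lˣ) :
    idl (F := F) S (b * c) = idl S b * idl S c := by
  unfold idl
  rw [← finprod_mul_distrib (supp_finite S b) (supp_finite S c)]
  refine finprod_congr fun P => ?_
  rw [ex_mul, zpow_add₀]
  rw [Ne, coeIdeal_eq_zero]
  exact P.ne_bot

theorem idl_one (S : Set (HeightOneSpectrum (𝓞 L))) : idl (F := F) S (1 : Lˣ) = 1 := by
  unfold idl
  simp [ex_one]

/-- The ideal attached to `b`, as a homomorphism. -/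
noncomputable def phi (S : Set (HeightOneSpectrum (𝓞 L))) :
    Lˣ →* (FractionalIdeal (𝓞 F)⁰ F)ˣ :=
  MonoidHom.toHomUnits
    { toFun := idl S
      map_one' := idl_one S
      map_mul' := idl_mul S }

theorem phi_val (S : Set (HeightOneSpectrum (𝓞 L))) (b : Lˣ) :
    (phi (F := F) S b : FractionalIdeal (𝓞 F)⁰ F) = idl S b := rfl

theorem index_principal :
    (toPrincipalIdeal (𝓞 F) F).range.index = Nat.card (ClassGroup (𝓞 F)) := by
  rw [Subgroup.index]
  exact Nat.card_congr (ClassGroup.equiv F).symm.toEquiv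


/-- If `σ b / b` is a unit outside `S` then `b` has the same valuation at all conjugates. -/
theorem val_const [IsGalois F L] {σ : L ≃ₐ[F] L} (hσ : ∀ g, g ∈ Subgroup.zpowers σ)
    {S : Set (HeightOneSpectrum (𝓞 L))}
    (hS : ∀ (g : L ≃ₐ[F] L), ∀ w ∈ S, mv g w ∈ S) {b : Lˣ}
    (hb : ∀ w ∈ S, w.valuation L (σ (b : L)) = w.valuation L (b : L)) (g : L ≃ₐ[F] L) :
    ∀ w ∈ S, w.valuation L (g (b : L)) = w.valuation L (b : L) := by
  have hmul : ∀ g h : L ≃ₐ[F] L, ∀ w : HeightOneSpectrum (𝓞 L), mv g (mv h w) = mv (g * h) w := by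
    intro g h w
    apply HeightOneSpectrum.ext
    rw [mv_asIdeal, mv_asIdeal, mv_asIdeal, mul_smul]
  have hone : ∀ w : HeightOneSpectrum (𝓞 L), mv (1 : L ≃ₐ[F] L) w = w := by
    intro w
    apply HeightOneSpectrum.ext
    rw [mv_asIdeal, one_smul]
  have htr : ∀ (g : L ≃ₐ[F] L) (w : HeightOneSpectrum (𝓞 L)) (x : L),
      w.valuation L (g x) = (mv g⁻¹ w).valuation L x := by
    intro g w x
    rw [← valuation_mv g (mv g⁻¹ w) x, hmul, mul_inv_cancel, hone]
  let H : Subgroup (L ≃ₐ[F] L) :=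
    { carrier := {g | ∀ w ∈ S, w.valuation L (g (b : L)) = w.valuation L (b : L)}
      one_mem' := fun w _ => rfl
      mul_mem' := fun {g h} hg hh w hw => by
        rw [AlgEquiv.mul_apply, htr g w, hh _ (hS _ _ hw), ← htr g w, hg w hw]
      inv_mem' := fun {g} hg w hw => by
        rw [htr g⁻¹ w, inv_inv, ← hg _ (hS g w hw), htr g, hmul, inv_mul_cancel, hone] }
  have hH : Subgroup.zpowers σ ≤ H := by
    rw [Subgroup.zpowers_le]
    exact hb
  exact hH (hσ g)

/-- The principal elements of `Lˣ` coming from `F`. -/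
noncomputable def FU (F L : Type*) [Field F] [Field L] [Algebra F L] : Subgroup Lˣ :=
  (Units.map (algebraMap F L : F →* L)).range

/-- **Comparison of ambiguous elements.**  Let `σ` generate the Galois group of `L/F`,
`SB ⊆ SU` two stable sets of primes of `L` such that `SU ∖ SB` is unramified.
Among the `b` prime to `SB` with `σ b / b` a unit at `SU` the classes modulo
`Fˣ` and the units at `SU` are at most `h_F` in number. -/
theorem amb_core [IsGalois F L] {σ : L ≃ₐ[F] L} (hσ : ∀ g, g ∈ Subgroup.zpowers σ)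
    {D : Lˣ →* Lˣ} (hD : ∀ x, (D x : L) = σ (x : L) / x)
    {SU SB : Set (HeightOneSpectrum (𝓞 L))}
    (hSU : ∀ (g : L ≃ₐ[F] L), ∀ w ∈ SU, mv g w ∈ SU)
    (hSB : ∀ (g : L ≃ₐ[F] L), ∀ w ∈ SB, mv g w ∈ SB)
    (hun : ∀ w ∈ SU, w ∉ SB → ∀ P : HeightOneSpectrum (𝓞 F), w.asIdeal.LiesOver P.asIdeal →
      ∀ x : F, w.valuation L (algebraMap F L x) = P.valuation F x) :
    (FU F L ⊔ VU SU).relIndex ((VU SU).comap D ⊓ VU SB) ∣ Nat.card (ClassGroup (𝓞 F)) := by
  have key : (toPrincipalIdeal (𝓞 F) F).range.comap (phi (F := F) (SU \ SB)) ⊓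
      ((VU SU).comap D ⊓ VU SB) ≤ FU F L ⊔ VU SU := by
    rintro b ⟨⟨c, hc⟩, hb1, hb2⟩
    have hbv : ∀ w ∈ SU, w.valuation L (σ (b : L)) = w.valuation L (b : L) := by
      intro w hw
      have h1 := hb1 w hw
      rw [hD, map_div₀] at h1
      exact (div_eq_one_iff_eq (by simp)).1 h1
    have hconst := val_const hσ hSU hbv
    have hcb : ∀ w ∈ SU, w.valuation L (algebraMap F L (c : F)) = w.valuation L (b : L) := by
      intro w hw
      obtain ⟨P, hP⟩ := exists_under F w
      obtain ⟨g, hg⟩ := exists_mv (ov_over (L := L) P) hP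
      have hc0 : (c : F) ≠ 0 := c.ne_zero
      have hcP : P.valuation F (c : F) = WithZero.exp (-(ex (SU \ SB) b P)) := by
        rw [H157.valuation_eq_count P hc0, ← count_idl, ← phi_val, ← hc, coe_toPrincipalIdeal]
      have hw0 : ov L P = mv g⁻¹ w := by
        apply HeightOneSpectrum.ext
        rw [mv_asIdeal, ← hg, mv_asIdeal, inv_smul_smul]
      by_cases hwB : w ∈ SB
      · have h0 : ov L P ∈ SB := by rw [hw0]; exact hSB _ _ hwB
        have h1 : ex (SU \ SB) b P = 0 := by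
          unfold ex
          rw [if_neg (fun h => h.2 h0)]
        rw [h1, neg_zero, WithZero.exp_zero] at hcP
        have := hP
        rw [← HeightOneSpectrum.valuation_liesOver L P w, hcP, one_pow, hb2 w hwB]
      · have h0 : ov L P ∉ SB := by
          intro h
          apply hwB
          rw [← hg]
          exact hSB _ _ h
        have h0' : ov L P ∈ SU := by rw [hw0]; exact hSU _ _ hw
        have h1 : ex (SU \ SB) b P = -WithZero.log ((ov L P).valuation L (b : L)) := by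
          unfold ex
          rw [if_pos ⟨h0', h0⟩]
        rw [h1, neg_neg, WithZero.exp_log (by simp)] at hcP
        rw [hun w hw hwB P hP, hcP, ← hconst g w hw, ← hg, valuation_mv]
    have e : b = Units.map (algebraMap F L : F →* L) c *
        ((Units.map (algebraMap F L : F →* L) c)⁻¹ * b) := by
      rw [mul_inv_cancel_left]
    rw [e]
    refine Subgroup.mul_mem_sup ⟨c, rfl⟩ fun w hw => ?_
    rw [Units.val_mul, map_mul, Units.val_inv_eq_inv_val, map_inv₀]
    have h2 : ((Units.map (algebraMap F L : F →* L) c : Lˣ) : L) = algebraMap F L (c : F) := rfl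
    rw [h2, hcb w hw]
    exact inv_mul_cancel₀ (by simp)
  have h1 : (FU F L ⊔ VU SU).relIndex ((VU SU).comap D ⊓ VU SB) ∣
      ((toPrincipalIdeal (𝓞 F) F).range.comap (phi (F := F) (SU \ SB)) ⊓
      ((VU SU).comap D ⊓ VU SB)).relIndex ((VU SU).comap D ⊓ VU SB) :=
    Subgroup.relIndex_dvd_of_le_left _ key
  rw [Subgroup.inf_relIndex_right] at h1
  refine h1.trans ?_
  refine (Subgroup.relIndex_dvd_index_of_normal _ _).trans ?_
  rw [Subgroup.index_comap, ← index_principal]
  exact Subgroup.relIndex_dvd_index_of_normal _ _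

/-- The same with an arbitrary element: the ambiguous classes at `SU` are at most `h_F` times the
ambiguous classes at `SB`. -/
theorem amb_sets [IsGalois F L] {σ : L ≃ₐ[F] L} (hσ : ∀ g, g ∈ Subgroup.zpowers σ)
    {D : Lˣ →* Lˣ} (hD : ∀ x, (D x : L) = σ (x : L) / x)
    {SU SB : Set (HeightOneSpectrum (𝓞 L))} (hBU : SB ⊆ SU)
    (hSU : ∀ (g : L ≃ₐ[F] L), ∀ w ∈ SU, mv g w ∈ SU)
    (hSB : ∀ (g : L ≃ₐ[F] L), ∀ w ∈ SB, mv g w ∈ SB)
    (hun : ∀ w ∈ SU, w ∉ SB → ∀ P : HeightOneSpectrum (𝓞 F), w.asIdeal.LiesOver P.asIdeal →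
      ∀ x : F, w.valuation L (algebraMap F L x) = P.valuation F x)
    (hfin : (FU F L ⊔ VU SB).relIndex ((VU SB).comap D) ≠ 0) :
    (FU F L ⊔ VU SU).relIndex ((VU SU).comap D) ≤
        Nat.card (ClassGroup (𝓞 F)) * (FU F L ⊔ VU SB).relIndex ((VU SB).comap D) ∧
      (FU F L ⊔ VU SU).relIndex ((VU SU).comap D) ≠ 0 := by
  have hle : VU SU ≤ VU SB := fun x hx w hw => hx w (hBU hw)
  have hA : (VU SU).comap D ≤ (VU SB).comap D := Subgroup.comap_mono hle
  have hFA : FU F L ≤ (VU SU).comap D := by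
    rintro _ ⟨c, rfl⟩ w _
    rw [hD]
    have h2 : ((Units.map (algebraMap F L : F →* L) c : Lˣ) : L) = algebraMap F L (c : F) := rfl
    rw [h2, AlgEquiv.commutes, div_self (by simp), map_one]
  have hUA : VU SU ≤ (VU SU).comap D := by
    intro x hx w hw
    have h3 : (mv σ⁻¹ w).valuation L (x : L) = w.valuation L (σ (x : L)) := by
      rw [← valuation_mv σ (mv σ⁻¹ w) (x : L)]
      congr 1
      congr 1
      apply HeightOneSpectrum.ext
      rw [mv_asIdeal, mv_asIdeal, smul_inv_smul]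
    rw [hD, map_div₀, ← h3, hx _ (hSU _ _ hw), hx w hw, _root_.div_one]
  have hD1 : FU F L ⊔ VU SU ≤ (VU SU).comap D := sup_le hFA hUA
  have hD12 : FU F L ⊔ VU SU ≤ FU F L ⊔ VU SB := sup_le_sup_left hle _
  have e1 : (FU F L ⊔ VU SB) ⊓ (VU SU).comap D = FU F L ⊔ ((VU SU).comap D ⊓ VU SB) := by
    rw [inf_comm ((VU SU).comap D)]
    exact sup_inf_assoc_of_le _ hFA
  have e2 : (FU F L ⊔ VU SU).relIndex ((FU F L ⊔ VU SB) ⊓ (VU SU).comap D) =
      (FU F L ⊔ VU SU).relIndex ((VU SU).comap D ⊓ VU SB) := by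
    rw [e1, ← Subgroup.relIndex_sup_right (FU F L ⊔ ((VU SU).comap D ⊓ VU SB)),
      ← Subgroup.relIndex_sup_right ((VU SU).comap D ⊓ VU SB) (FU F L ⊔ VU SU)]
    congr 1
    apply le_antisymm
    · exact sup_le (sup_le (le_sup_of_le_right le_sup_left) le_sup_left) le_sup_right
    · exact sup_le (le_sup_of_le_left le_sup_right) le_sup_right
  have e3 : (FU F L ⊔ VU SU).relIndex ((VU SU).comap D) =
      (FU F L ⊔ VU SU).relIndex ((VU SU).comap D ⊓ VU SB) *
        (FU F L ⊔ VU SB).relIndex ((VU SU).comap D) := by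
    rw [← e2, ← Subgroup.inf_relIndex_right (FU F L ⊔ VU SB) ((VU SU).comap D)]
    exact (Subgroup.relIndex_mul_relIndex _ _ _ (le_inf hD12 hD1) inf_le_right).symm
  have h4 := amb_core hσ hD hSU hSB hun
  have h5 : 0 < Nat.card (ClassGroup (𝓞 F)) := Nat.card_pos
  have h6 : (FU F L ⊔ VU SB).relIndex ((VU SU).comap D) ≤
      (FU F L ⊔ VU SB).relIndex ((VU SB).comap D) :=
    Subgroup.relIndex_le_of_le_right hA hfin
  have h7 : (FU F L ⊔ VU SB).relIndex ((VU SU).comap D) ≠ 0 := by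
    intro h0
    apply hfin
    exact Subgroup.relIndex_eq_zero_of_le_right hA h0
  rw [e3]
  refine ⟨Nat.mul_le_mul (Nat.le_of_dvd h5 h4) h6, mul_ne_zero ?_ h7⟩
  intro h0
  rw [h0, zero_dvd_iff] at h4
  omega

/-- **Block (A) of M3.**  `L/F` cyclic with generator `σ`, unramified outside `p`, `v` a prime of
`F` not above `p`: the ambiguous classes of the `v`-units are at most `h_F` times the ambiguous
classes of the units at `p`. -/
theorem amb [IsGalois F L] {σ : L ≃ₐ[F] L} (hσ : ∀ g, g ∈ Subgroup.zpowers σ)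
    {D : Lˣ →* Lˣ} (hD : ∀ x, (D x : L) = σ (x : L) / x) (p : ℕ)
    (v : HeightOneSpectrum (𝓞 F)) (hpv : (p : 𝓞 F) ∉ v.asIdeal)
    (hun : ∀ w : HeightOneSpectrum (𝓞 L), (p : 𝓞 L) ∉ w.asIdeal →
      ∀ P : HeightOneSpectrum (𝓞 F), w.asIdeal.LiesOver P.asIdeal →
      ∀ x : F, w.valuation L (algebraMap F L x) = P.valuation F x)
    {U B : Subgroup Lˣ}
    (hU : ∀ x : Lˣ, x ∈ U ↔ ∀ w : HeightOneSpectrum (𝓞 L), ¬ w.asIdeal.LiesOver v.asIdeal →
      w.valuation L (x : L) = 1)
    (hB : ∀ x : Lˣ, x ∈ B ↔ ∀ w : HeightOneSpectrum (𝓞 L), (p : 𝓞 L) ∈ w.asIdeal →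
      w.valuation L (x : L) = 1)
    (hfin : (FU F L ⊔ B).relIndex (B.comap D) ≠ 0) :
    (FU F L ⊔ U).relIndex (U.comap D) ≤
        Nat.card (ClassGroup (𝓞 F)) * (FU F L ⊔ B).relIndex (B.comap D) ∧
      (FU F L ⊔ U).relIndex (U.comap D) ≠ 0 := by
  have eU : U = VU {w : HeightOneSpectrum (𝓞 L) | ¬ w.asIdeal.LiesOver v.asIdeal} := by
    ext x
    exact hU x
  have eB : B = VU {w : HeightOneSpectrum (𝓞 L) | (p : 𝓞 L) ∈ w.asIdeal} := by
    ext x
    exact hB x
  rw [eU, eB]
  rw [eB] at hfin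
  refine amb_sets hσ hD ?_ ?_ ?_ (fun w _ hw => hun w hw) hfin
  · intro w hw hwv
    apply hpv
    rw [hwv.over, Ideal.mem_comap, map_natCast]
    exact hw
  · intro g w hw h
    apply hw
    have h1 := mv_over g⁻¹ h
    have h2 : mv g⁻¹ (mv g w) = w := by
      apply HeightOneSpectrum.ext
      rw [mv_asIdeal, mv_asIdeal, inv_smul_smul]
    rwa [h2] at h1
  · intro g w hw
    change (p : 𝓞 L) ∈ g • w.asIdeal
    have h1 : g • (p : 𝓞 L) ∈ g • w.asIdeal := Ideal.smul_mem_pointwise_smul _ _ _ hw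
    have h2 : g • (p : 𝓞 L) = (p : 𝓞 L) := by
      exact map_natCast (MulSemiringAction.toRingHom (L ≃ₐ[F] L) (𝓞 L) g) p
    rwa [h2] at h1

end Vale.Agent.P024.H539
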