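import Vale.Agent.P024.M4.Spec
import Vale.Agent.P024.SolvClosedFacts
import Mathlib.NumberTheory.Real.Irrational

/-!
# P024, [CC2]: complex conjugations of a solvably closed field
-/

set_option linter.all false

namespace Vale.Agent.P024.H539.CC2

open Vale.Agent.P024 Vale.Agent.P024.M4

variable {E : Type*} [Field E] [CharZero E]

/-- Every embedding defines a complex conjugation. -/
theorem exists_cc [IsGalois ℚ E] (φ : E →+* ℂ) :
    ∃ c : E ≃ₐ[ℚ] E, ∀ x, φ (c x) = (starRingEnd ℂ) (φ x) := by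
  letI : Algebra E ℂ := φ.toAlgebra
  haveI : IsScalarTower ℚ E ℂ := IsScalarTower.of_algebraMap_eq fun x => by
    rw [eq_ratCast, eq_ratCast, map_ratCast]
  let χ : ℂ ≃ₐ[ℚ] ℂ := Complex.conjAe.restrictScalars ℚ
  refine ⟨χ.restrictNormal E, fun x => ?_⟩
  exact AlgEquiv.restrictNormal_commutes χ E x

theorem cc_mul {c : E ≃ₐ[ℚ] E} (hc : IsCC c) : c * c = 1 := by
  obtain ⟨φ, h⟩ := hc
  ext x
  refine φ.injective ?_
  show φ (c (c x)) = φ x
  rw [h, h, Complex.conj_conj]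

/-- The conjugates of a complex conjugation. -/
theorem cc_conj {c : E ≃ₐ[ℚ] E} (hc : IsCC c) (s : E ≃ₐ[ℚ] E) : IsCC (s * c * s⁻¹) := by
  obtain ⟨φ, h⟩ := hc
  refine ⟨φ.comp (s⁻¹ : E ≃ₐ[ℚ] E).toRingEquiv.toRingHom, fun x => ?_⟩
  show φ (s⁻¹ (s (c (s⁻¹ x)))) = (starRingEnd ℂ) (φ (s⁻¹ x))
  rw [← h]
  congr 1
  exact s.symm_apply_apply _

theorem cc_ne (hE : SolvablyClosed E) {c : E ≃ₐ[ℚ] E} (hc : IsCC c) : c ≠ 1 := by
  rintro rfl
  obtain ⟨φ, h⟩ := hc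
  obtain ⟨i, hi⟩ := hE.exists_root (n := 2) (by norm_num) (-1)
  have h1 : (starRingEnd ℂ) (φ i) = φ i := (h i).symm
  have h2 : φ i ^ 2 = -1 := by rw [← map_pow, hi, map_neg, map_one]
  obtain ⟨r, hr⟩ := Complex.conj_eq_iff_real.1 h1
  rw [hr] at h2
  have h3 : r ^ 2 = -1 := by exact_mod_cast h2
  nlinarith [sq_nonneg r]

/-- The square root of a real number. -/
theorem conj_sqrt {z : ℂ} {r : ℝ} (hz : z ^ 2 = r) (hr : r ≠ 0) :
    (starRingEnd ℂ) z = z ↔ 0 < r := by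
  have h1 : ((starRingEnd ℂ) z) ^ 2 = z ^ 2 := by
    rw [← map_pow, hz, Complex.conj_ofReal]
  constructor
  · intro h
    obtain ⟨t, ht⟩ := Complex.conj_eq_iff_real.1 h
    rw [ht] at hz
    have h3 : t ^ 2 = r := by exact_mod_cast hz
    exact lt_of_le_of_ne (h3 ▸ sq_nonneg t) hr.symm
  · intro h
    rcases sq_eq_sq_iff_eq_or_eq_neg.1 h1 with h2 | h2
    · exact h2
    · exfalso
      have h3 : z.re = 0 := by
        have := congrArg Complex.re h2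
        rw [Complex.conj_re, Complex.neg_re] at this
        linarith
      have h4 := congrArg Complex.re hz
      rw [sq, Complex.mul_re, h3, Complex.ofReal_re] at h4
      nlinarith [sq_nonneg z.im]

/-- Two complex conjugations. -/
theorem exists_two [IsGalois ℚ E] (hE : SolvablyClosed E) :
    ∃ c₁ c₂ : E ≃ₐ[ℚ] E, IsCC c₁ ∧ IsCC c₂ ∧ c₁ ≠ c₂ := by
  obtain ⟨β, hβ⟩ := hE.exists_root (n := 2) (by norm_num) 2
  obtain ⟨α, hα⟩ := hE.exists_root (n := 2) (by norm_num) β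
  -- an automorphism which moves `β`
  obtain ⟨s, hs⟩ : ∃ s : E ≃ₐ[ℚ] E, s β ≠ β := by
    by_contra hcon
    push Not at hcon
    obtain ⟨q, hq⟩ := (InfiniteGalois.mem_range_algebraMap_iff_fixed β).2 hcon
    have h1 : (q : ℚ) ^ 2 = 2 := by
      have : algebraMap ℚ E (q ^ 2) = algebraMap ℚ E 2 := by
        rw [map_pow, hq, hβ, map_ofNat]
      exact (algebraMap ℚ E).injective this
    have h2 : Irrational (√2) := irrational_sqrt_two
    have h3 : ((|q| : ℚ) : ℝ) = √2 := by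
      rw [eq_comm, Real.sqrt_eq_iff_mul_self_eq (by norm_num) (by positivity)]
      have : |q| * |q| = 2 := by rw [abs_mul_abs_self, ← sq, h1]
      exact_mod_cast this.symm
    exact h2 ⟨|q|, h3⟩
  have hsβ : s β = -β := by
    have h1 : (s β) ^ 2 = β ^ 2 := by rw [← map_pow, hβ, map_ofNat]
    rcases sq_eq_sq_iff_eq_or_eq_neg.1 h1 with h2 | h2
    · exact absurd h2 hs
    · exact h2
  -- an embedding
  obtain ⟨φ⟩ : Nonempty (E →+* ℂ) :=
    ⟨(IsAlgClosed.lift (R := ℚ) (S := E) (M := ℂ)).toRingHom⟩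
  obtain ⟨c₁, h1⟩ := exists_cc φ
  obtain ⟨c₂, h2⟩ := exists_cc (φ.comp (s : E ≃ₐ[ℚ] E).toRingEquiv.toRingHom)
  refine ⟨c₁, c₂, ⟨_, h1⟩, ⟨_, h2⟩, fun h => ?_⟩
  subst h
  -- `φ β` is real
  have e1 : φ β ^ 2 = 2 := by rw [← map_pow, hβ, map_ofNat]
  obtain ⟨r, hr⟩ : ∃ r : ℝ, φ β = r := by
    rcases sq_eq_sq_iff_eq_or_eq_neg.1 (show φ β ^ 2 = ((√2 : ℝ) : ℂ) ^ 2 by
      rw [e1, ← Complex.ofReal_pow, Real.sq_sqrt (by norm_num)]; norm_num) with h | h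
    · exact ⟨_, h⟩
    · exact ⟨-√2, by rw [h]; push_cast; rfl⟩
  have hr0 : r ≠ 0 := by
    rintro rfl
    rw [hr] at e1
    norm_num at e1
  have e2 : φ α ^ 2 = (r : ℂ) := by rw [← map_pow, hα, hr]
  have e3 : φ (s α) ^ 2 = ((-r : ℝ) : ℂ) := by
    rw [← map_pow, ← map_pow, hα, hsβ, map_neg, hr]
    push_cast
    rfl
  have f1 := conj_sqrt e2 hr0
  have f2 := conj_sqrt e3 (neg_ne_zero.2 hr0)
  have g1 : (starRingEnd ℂ) (φ α) = φ α ↔ c₁ α = α := by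
    rw [← h1]
    exact φ.injective.eq_iff
  have g2 : (starRingEnd ℂ) (φ (s α)) = φ (s α) ↔ c₁ α = α := by
    have := h2 α
    change φ (s (c₁ α)) = (starRingEnd ℂ) (φ (s α)) at this
    rw [← this]
    rw [φ.injective.eq_iff]
    exact s.injective.eq_iff
  rw [g1] at f1
  rw [g2] at f2
  have := f1.symm.trans f2
  rcases lt_or_gt_of_ne hr0 with h | h
  · have := this.2 (by linarith)
    linarith
  · have := this.1 h
    linarith

/-- **[CC2]** -/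
theorem cc2 [IsGalois ℚ E] (hE : SolvablyClosed E) :
    (∃ c₁ c₂ : E ≃ₐ[ℚ] E, IsCC c₁ ∧ IsCC c₂ ∧ c₁ ≠ c₂) ∧
      ∀ c : E ≃ₐ[ℚ] E, IsCC c → c * c = 1 ∧ c ≠ 1 :=
  ⟨exists_two hE, fun _ hc => ⟨cc_mul hc, cc_ne hE hc⟩⟩

end Vale.Agent.P024.H539.CC2
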