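import Mathlib

/-!
P024, block [CLS] (helper644): an element of a number field all of whose valuations are
multiples of `n` has a fixed power which is a unit times an `n`-th power.
-/

namespace Vale.Agent.P024.H539

open IsDedekindDomain NumberField

/-- An ideal all of whose multiplicities are multiples of `n` is an `n`-th power. -/
theorem exists_root_ideal {R : Type*} [CommRing R] [IsDedekindDomain R] {I : Ideal R}
    (hI : I ≠ ⊥) {n : ℕ} (hn : 0 < n)
    (h : ∀ v : HeightOneSpectrum R, n ∣ multiplicity v.asIdeal I) :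
    ∃ J : Ideal R, J ^ n = I := by
  classical
  choose k hk using h
  have hfin := Ideal.hasFiniteMulSupport (R := R) hI
  have e1 := Ideal.finprod_heightOneSpectrum_pow_multiplicity hI
  have hfin2 : (Function.mulSupport fun v : HeightOneSpectrum R ↦ v.asIdeal ^ k v).Finite := by
    refine hfin.subset fun v hv => ?_
    rw [Function.mem_mulSupport] at hv ⊢
    rw [HeightOneSpectrum.maxPowDividing_eq_pow_multiplicity hI v, hk v]
    intro h1
    apply hv
    rw [mul_comm, pow_mul] at h1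
    have h2 : IsUnit (v.asIdeal ^ k v) := (isUnit_pow_iff hn.ne').1 (by rw [h1]; exact isUnit_one)
    rw [Ideal.isUnit_iff] at h2
    rw [h2, Ideal.one_eq_top]
  refine ⟨∏ᶠ v : HeightOneSpectrum R, v.asIdeal ^ k v, ?_⟩
  rw [finprod_pow hfin2]
  conv_rhs => rw [← e1]
  refine finprod_congr fun v => ?_
  rw [hk v, mul_comm, pow_mul]

/-- An integer whose valuations are all multiples of `n`: the `h`-th power is a unit times an
`n`-th power. -/
theorem cls_int {R : Type*} [CommRing R] [IsDedekindDomain R] {h : ℕ}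
    (hcl : ∀ J : Ideal R, J ≠ ⊥ → (J ^ h).IsPrincipal) {n : ℕ} (hn : 0 < n) {c : R} (hc : c ≠ 0)
    (hv : ∀ v : HeightOneSpectrum R, ∃ k : ℤ, v.intValuation c = WithZero.exp (n * k)) :
    ∃ (u : Rˣ) (z : R), z ≠ 0 ∧ c ^ h = u * z ^ n := by
  have hI : Ideal.span {c} ≠ (⊥ : Ideal R) := by simpa using hc
  obtain ⟨J, hJ⟩ := exists_root_ideal hI hn (fun v => by
    obtain ⟨k, hk⟩ := hv v
    rw [v.intValuation_eq_exp_neg_multiplicity hc] at hk
    have h1 : -(multiplicity v.asIdeal (Ideal.span {c}) : ℤ) = n * k :=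
      WithZero.exp_injective hk
    have h2 : (n : ℤ) ∣ (multiplicity v.asIdeal (Ideal.span {c}) : ℤ) := ⟨-k, by linarith⟩
    exact_mod_cast h2)
  have hJ0 : J ≠ ⊥ := by
    rintro rfl
    apply hI
    rw [← hJ, Ideal.bot_pow hn.ne']
  obtain ⟨z, hz⟩ := (hcl J hJ0).principal
  have hz' : J ^ h = Ideal.span {z} := hz
  have e : Ideal.span {c ^ h} = Ideal.span {z ^ n} := by
    rw [← Ideal.span_singleton_pow, ← Ideal.span_singleton_pow, ← hJ, ← hz', ← pow_mul,
      ← pow_mul, mul_comm]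
  rw [Ideal.span_singleton_eq_span_singleton] at e
  obtain ⟨u, hu⟩ := e.symm
  refine ⟨u, z, ?_, by rw [← hu, mul_comm]⟩
  rintro rfl
  have : c ^ h = 0 := by rw [← hu, zero_pow hn.ne', zero_mul]
  exact hc (eq_zero_of_pow_eq_zero this)

theorem cls {L : Type*} [Field L] [NumberField L] : ∃ h : ℕ, 0 < h ∧ ∀ (n : ℕ) (y : L), y ≠ 0 →
    (∀ v : HeightOneSpectrum (𝓞 L), ∃ k : ℤ, v.valuation L y = WithZero.exp (n * k)) →
    ∃ (u : (𝓞 L)ˣ) (z : L), z ≠ 0 ∧ y ^ h = ((u : 𝓞 L) : L) * z ^ n := by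
  classical
  refine ⟨Fintype.card (ClassGroup (𝓞 L)), Fintype.card_pos, fun n y hy hv => ?_⟩
  rcases Nat.eq_zero_or_pos n with rfl | hn
  · have h1 : ∀ v : HeightOneSpectrum (𝓞 L), v.valuation L y = 1 := by
      intro v
      obtain ⟨k, hk⟩ := hv v
      simpa using hk
    obtain ⟨a, ha⟩ := HeightOneSpectrum.mem_integers_of_valuation_le_one L y
      (fun v => (h1 v).le)
    obtain ⟨b, hb⟩ := HeightOneSpectrum.mem_integers_of_valuation_le_one L y⁻¹
      (fun v => by rw [map_inv₀, h1 v, inv_one])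
    have hab : a * b = 1 := by
      apply FaithfulSMul.algebraMap_injective (𝓞 L) L
      rw [map_mul, ha, hb, mul_inv_cancel₀ hy, map_one]
    refine ⟨(Units.mkOfMulEqOne a b hab) ^ Fintype.card (ClassGroup (𝓞 L)), 1, one_ne_zero, ?_⟩
    rw [Units.val_pow_eq_pow_val, Units.val_mkOfMulEqOne, pow_zero, mul_one]
    rw [← ha]
    simp
  · obtain ⟨a, b, hb, hab⟩ := IsFractionRing.div_surjective (A := 𝓞 L) y
    have hb0 : b ≠ 0 := nonZeroDivisors.ne_zero hb
    have hbL : algebraMap (𝓞 L) L b ≠ 0 := by simpa using hb0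
    have haL : algebraMap (𝓞 L) L a ≠ 0 := by
      intro h0
      rw [h0, zero_div] at hab
      exact hy hab.symm
    have ha0 : a ≠ 0 := by
      rintro rfl
      exact haL (map_zero _)
    have hc : a * b ^ (n - 1) ≠ 0 := mul_ne_zero ha0 (pow_ne_zero _ hb0)
    have hcy : algebraMap (𝓞 L) L (a * b ^ (n - 1)) = y * (algebraMap (𝓞 L) L b) ^ n := by
      rw [map_mul, map_pow, ← hab]
      obtain ⟨m, rfl⟩ : ∃ m, n = m + 1 := ⟨n - 1, by omega⟩
      rw [Nat.add_sub_cancel, pow_succ]
      field_simp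
    obtain ⟨u, z, hz, he⟩ := cls_int (R := 𝓞 L) (h := Fintype.card (ClassGroup (𝓞 L)))
      (fun J hJ => by
        have hJ' : J ∈ nonZeroDivisors (Ideal (𝓞 L)) := mem_nonZeroDivisors_of_ne_zero hJ
        rw [← ClassGroup.mk0_eq_one_iff (pow_mem hJ' _)]
        have h1 : ClassGroup.mk0 (⟨J, hJ'⟩ ^ Fintype.card (ClassGroup (𝓞 L)) :
            nonZeroDivisors (Ideal (𝓞 L))) = 1 := by
          rw [map_pow, pow_card_eq_one]
        exact h1) hn hc (fun v => by
        obtain ⟨k, hk⟩ := hv v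
        have hvb : v.valuation L (algebraMap (𝓞 L) L b) ≠ 0 := by
          rw [Ne, map_eq_zero]; exact hbL
        refine ⟨k + WithZero.log (v.valuation L (algebraMap (𝓞 L) L b)), ?_⟩
        have e3 : v.intValuation (a * b ^ (n - 1)) =
            v.valuation L (algebraMap (𝓞 L) L (a * b ^ (n - 1))) :=
          (v.valuation_of_algebraMap (K := L) _).symm
        rw [e3, hcy, map_mul, map_pow, hk, mul_add, WithZero.exp_add]
        congr 1
        rw [← nsmul_eq_mul, WithZero.exp_nsmul, WithZero.exp_log hvb])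
    refine ⟨u, algebraMap (𝓞 L) L z / (algebraMap (𝓞 L) L b) ^
      Fintype.card (ClassGroup (𝓞 L)), div_ne_zero (by simpa using hz) (pow_ne_zero _ hbL), ?_⟩
    have h2 : y = algebraMap (𝓞 L) L (a * b ^ (n - 1)) / (algebraMap (𝓞 L) L b) ^ n := by
      rw [hcy]; field_simp
    rw [h2, div_pow, ← map_pow, he, map_mul, map_pow, div_pow, ← pow_mul, ← pow_mul,
      mul_comm n, mul_div_assoc]

end Vale.Agent.P024.H539
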