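import Mathlib.Algebra.MonoidAlgebra.Basic
import Mathlib.GroupTheory.Index
import Mathlib.GroupTheory.OrderOfElement
import Mathlib.Data.Set.Card
import Mathlib.Tactic.Group

/-!
# P024, [GR]: a finite group lemma
-/

set_option linter.all false

open Finset

namespace Vale.Agent.P024.H539.GR

variable {G : Type*} [Group G]

/-- The norm of a cyclic subgroup. -/
noncomputable def Nz (z : G) : MonoidAlgebra ℤ G :=
  ∑ j ∈ range (orderOf z), MonoidAlgebra.of ℤ G z ^ j

open scoped Classical in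
theorem Nz_apply (z x : G) :
    (Nz z).coeff x = ((range (orderOf z)).filter fun j => z ^ j = x).card := by
  unfold Nz
  rw [Finset.card_filter]
  have e : ∀ j, (MonoidAlgebra.of ℤ G z ^ j) = MonoidAlgebra.single (z ^ j) (1 : ℤ) := fun j => by
    rw [← map_pow]
    rfl
  simp only [e]
  push_cast
  rw [MonoidAlgebra.coeff_sum, Finsupp.finset_sum_apply]
  refine Finset.sum_congr rfl fun j _ => ?_
  rw [MonoidAlgebra.coeff_single, Finsupp.single_apply]

theorem Nz_nonneg (z x : G) : 0 ≤ (Nz z).coeff x := by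
  classical
  rw [Nz_apply]
  exact Int.natCast_nonneg _

theorem Nz_eq_zero {z x : G} (hx : x ∉ Subgroup.zpowers z) : (Nz z).coeff x = 0 := by
  classical
  rw [Nz_apply]
  have : (range (orderOf z)).filter (fun j => z ^ j = x) = ∅ := by
    refine Finset.filter_eq_empty_iff.2 fun j _ h => hx ?_
    rw [← h]
    exact Subgroup.npow_mem_zpowers z j
  rw [this]
  simp

theorem Nz_one [Finite G] (z : G) : 0 < (Nz z).coeff 1 := by
  classical
  rw [Nz_apply]
  have : 0 ∈ (range (orderOf z)).filter fun j => z ^ j = 1 := by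
    rw [Finset.mem_filter]
    exact ⟨Finset.mem_range.2 (orderOf_pos z), pow_zero z⟩
  exact_mod_cast Finset.card_pos.2 ⟨0, this⟩

theorem left_apply (g x : G) (y : MonoidAlgebra ℤ G) :
    (MonoidAlgebra.of ℤ G g * y).coeff x = y.coeff (g⁻¹ * x) := by
  rw [MonoidAlgebra.of_apply, MonoidAlgebra.coeff_single_mul_apply, one_mul]

theorem right_apply (g x : G) (y : MonoidAlgebra ℤ G) :
    (y * MonoidAlgebra.of ℤ G g).coeff x = y.coeff (x * g⁻¹) := by
  rw [MonoidAlgebra.of_apply, MonoidAlgebra.coeff_mul_single_apply, mul_one]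

/-- A subgroup inside `Z ∪ Z b` has relative index at most two. -/
theorem relIndex_le_two (Z P : Subgroup G) (b : G) (h : ∀ p ∈ P, p ∈ Z ∨ p * b⁻¹ ∈ Z) :
    Z.relIndex P ≤ 2 := by
  classical
  unfold Subgroup.relIndex Subgroup.index
  have hw : ∀ q q' : P, QuotientGroup.leftRel (Z.subgroupOf P) q q' →
      decide ((q : G) ∈ Z) = decide ((q' : G) ∈ Z) := by
    intro q q' hqq
    rw [QuotientGroup.leftRel_apply] at hqq
    have h1 : (q : G)⁻¹ * q' ∈ Z := hqq
    have : (q : G) ∈ Z ↔ (q' : G) ∈ Z := by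
      constructor
      · intro hq
        have := Z.mul_mem hq h1
        rwa [mul_inv_cancel_left] at this
      · intro hq
        have := Z.mul_mem hq (Z.inv_mem h1)
        rwa [mul_inv_rev, inv_inv, mul_inv_cancel_left] at this
    exact decide_eq_decide.2 this
  let F : P ⧸ Z.subgroupOf P → Bool := Quotient.lift (fun q : P => decide ((q : G) ∈ Z)) hw
  have hF : Function.Injective F := by
    intro a b' hab
    induction a using QuotientGroup.induction_on with
    | H q =>
    induction b' using QuotientGroup.induction_on with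
    | H q' =>
    have h1 : decide ((q : G) ∈ Z) = decide ((q' : G) ∈ Z) := hab
    have h2 : (q : G) ∈ Z ↔ (q' : G) ∈ Z := decide_eq_decide.1 h1
    rw [QuotientGroup.eq]
    show (q : G)⁻¹ * q' ∈ Z
    by_cases hq : (q : G) ∈ Z
    · exact Z.mul_mem (Z.inv_mem hq) (h2.1 hq)
    · have hq' : (q' : G) ∉ Z := fun h => hq (h2.2 h)
      rcases h _ (P.inv_mem q.2) with e | e
      · exact absurd ((Z.inv_mem_iff).1 e) hq
      · rcases h _ (P.inv_mem q'.2) with e' | e'
        · exact absurd ((Z.inv_mem_iff).1 e') hq'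
        · have := Z.mul_mem e (Z.inv_mem e')
          rwa [mul_inv_rev, inv_inv, inv_inv, mul_assoc, inv_mul_cancel_left] at this
  have := Nat.card_le_card_of_injective F hF
  simpa using this

variable [Finite G]

/-- **[GR], without the complex conjugation.** -/
theorem gr' (P : Subgroup G) (z f : G) (hf : f ∉ Subgroup.zpowers z)
    (hP : 2 ≤ (Subgroup.zpowers z).relIndex P) :
    ∃ g ∈ P, (MonoidAlgebra.of ℤ G g - 1) * Nz z * (MonoidAlgebra.of ℤ G f - 1) ≠ 0 := by
  by_contra hcon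
  push Not at hcon
  set y : MonoidAlgebra ℤ G := Nz z * (MonoidAlgebra.of ℤ G f - 1) with hy
  have hy' : ∀ x, y.coeff x = (Nz z).coeff (x * f⁻¹) - (Nz z).coeff x := fun x => by
    rw [hy, mul_sub, mul_one]
    show (Nz z * MonoidAlgebra.of ℤ G f).coeff x - (Nz z).coeff x = _
    rw [right_apply]
  have hinv : ∀ g ∈ P, ∀ x, y.coeff (g⁻¹ * x) = y.coeff x := fun g hg x => by
    have h1 := hcon g hg
    rw [mul_assoc, sub_mul, one_mul] at h1
    have h2 : MonoidAlgebra.of ℤ G g * y = y := sub_eq_zero.1 h1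
    have h3 := left_apply g x y
    rw [h2] at h3
    exact h3.symm
  have h1 : y.coeff 1 < 0 := by
    rw [hy', one_mul, Nz_eq_zero fun h => hf ((Subgroup.inv_mem_iff _).1 h)]
    have := Nz_one z
    omega
  have h2 : P ≤ Subgroup.zpowers z := by
    intro p hp
    by_contra hpz
    have h3 := hinv _ (P.inv_mem hp) 1
    rw [inv_inv, mul_one] at h3
    rw [← h3, hy', Nz_eq_zero hpz] at h1
    have := Nz_nonneg z (p * f⁻¹)
    omega
  rw [Subgroup.relIndex_eq_one.2 h2] at hP
  omega

/-- **[GR].** -/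
theorem gr (P : Subgroup G) (c z f : G) (hf : f ∉ Subgroup.zpowers z)
    (hP : 3 ≤ (Subgroup.zpowers z).relIndex P)
    (hC : 2 ≤ (Subgroup.zpowers z).relIndex (Subgroup.normalClosure {c})) :
    ∃ g ∈ P, ∃ h : G, (MonoidAlgebra.of ℤ G g - 1) * Nz z * (MonoidAlgebra.of ℤ G f - 1) *
      MonoidAlgebra.of ℤ G h * (1 - MonoidAlgebra.of ℤ G c) ≠ 0 := by
  by_contra hcon
  push Not at hcon
  -- a conjugate of `c` outside `⟨z⟩`
  obtain ⟨h, hh⟩ : ∃ h : G, h * c * h⁻¹ ∉ Subgroup.zpowers z := by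
    by_contra hall
    push Not at hall
    have h1 : Subgroup.normalClosure {c} ≤ Subgroup.zpowers z := by
      refine (Subgroup.closure_le _).2 ?_
      intro x hx
      obtain ⟨a, ha, hax⟩ := Group.mem_conjugatesOfSet_iff.1 hx
      rw [Set.mem_singleton_iff] at ha
      subst ha
      obtain ⟨g, hg⟩ := isConj_iff.1 hax
      rw [← hg]
      exact hall g
    rw [Subgroup.relIndex_eq_one.2 h1] at hC
    omega
  set y : MonoidAlgebra ℤ G := Nz z * (MonoidAlgebra.of ℤ G f - 1) * MonoidAlgebra.of ℤ G h *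
    (1 - MonoidAlgebra.of ℤ G c) with hy
  have hy' : ∀ x, y.coeff x = ((Nz z).coeff (x * h⁻¹ * f⁻¹) - (Nz z).coeff (x * h⁻¹)) -
      ((Nz z).coeff (x * c⁻¹ * h⁻¹ * f⁻¹) - (Nz z).coeff (x * c⁻¹ * h⁻¹)) := fun x => by
    have e1 : ∀ x, (Nz z * (MonoidAlgebra.of ℤ G f - 1)).coeff x =
        (Nz z).coeff (x * f⁻¹) - (Nz z).coeff x := fun x => by
      rw [mul_sub, mul_one]
      show (Nz z * MonoidAlgebra.of ℤ G f).coeff x - (Nz z).coeff x = _
      rw [right_apply]
    rw [hy, mul_sub, mul_one]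
    show (Nz z * (MonoidAlgebra.of ℤ G f - 1) * MonoidAlgebra.of ℤ G h).coeff x -
      (Nz z * (MonoidAlgebra.of ℤ G f - 1) * MonoidAlgebra.of ℤ G h *
        MonoidAlgebra.of ℤ G c).coeff x = _
    rw [right_apply, right_apply, right_apply, e1, e1]
  have hinv : ∀ g ∈ P, ∀ x, y.coeff (g⁻¹ * x) = y.coeff x := fun g hg x => by
    have h1 := hcon g hg h
    rw [mul_assoc, mul_assoc, mul_assoc, sub_mul, one_mul] at h1
    have h2 : MonoidAlgebra.of ℤ G g * y = y := by
      rw [hy]
      simp only [mul_assoc]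
      exact sub_eq_zero.1 h1
    have h3 := left_apply g x y
    rw [h2] at h3
    exact h3.symm
  have hh' : h * c⁻¹ * h⁻¹ ∉ Subgroup.zpowers z := fun e => hh (by
    have := (Subgroup.inv_mem_iff _).2 e
    simpa [mul_assoc] using this)
  have h1 : y.coeff h < 0 := by
    rw [hy', mul_inv_cancel, one_mul, Nz_eq_zero fun h => hf ((Subgroup.inv_mem_iff _).1 h),
      Nz_eq_zero hh']
    have := Nz_one z
    have := Nz_nonneg z (h * c⁻¹ * h⁻¹ * f⁻¹)
    omega
  have h2 := relIndex_le_two (Subgroup.zpowers z) P (f * h * c * h⁻¹) fun p hp => by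
    by_contra hpz
    push Not at hpz
    have h3 := hinv _ (P.inv_mem hp) h
    rw [inv_inv] at h3
    have e1 : p * h * h⁻¹ = p := by group
    have e2 : p * h * c⁻¹ * h⁻¹ * f⁻¹ = p * (f * h * c * h⁻¹)⁻¹ := by group
    rw [← h3, hy', e1, e2, Nz_eq_zero hpz.1, Nz_eq_zero hpz.2] at h1
    have := Nz_nonneg z (p * f⁻¹)
    have := Nz_nonneg z (p * h * c⁻¹ * h⁻¹)
    omega
  omega

end Vale.Agent.P024.H539.GR
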