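import Mathlib

/-!
P024, block M3 (a): Galois action and adic valuations of a number field.
-/

namespace Vale.Agent.P024.H539

open IsDedekindDomain NumberField
open scoped Pointwise

variable {F L : Type*} [Field F] [NumberField F] [Field L] [NumberField L] [Algebra F L]

/-- The image of a finite prime of `L` under an automorphism. -/
noncomputable def mv (g : L ≃ₐ[F] L) (w : HeightOneSpectrum (𝓞 L)) :
    HeightOneSpectrum (𝓞 L) where
  asIdeal := g • w.asIdeal
  isPrime := by
    have := w.isPrime
    infer_instance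
  ne_bot := by
    intro h
    apply w.ne_bot
    have h1 : g⁻¹ • (g • w.asIdeal) = g⁻¹ • (⊥ : Ideal (𝓞 L)) := by rw [h]
    rw [inv_smul_smul] at h1
    rw [h1, Ideal.pointwise_smul_def, Ideal.map_bot]

theorem mv_asIdeal (g : L ≃ₐ[F] L) (w : HeightOneSpectrum (𝓞 L)) :
    (mv g w).asIdeal = g • w.asIdeal := rfl

theorem intValuation_smul (g : L ≃ₐ[F] L) (w : HeightOneSpectrum (𝓞 L)) (a : 𝓞 L) :
    (mv g w).intValuation (g • a) = w.intValuation a := by
  have key : ∀ n : ℕ, (mv g w).intValuation (g • a) ≤ WithZero.exp (-(n : ℤ)) ↔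
      w.intValuation a ≤ WithZero.exp (-(n : ℤ)) := by
    intro n
    rw [HeightOneSpectrum.intValuation_le_pow_iff_mem,
      HeightOneSpectrum.intValuation_le_pow_iff_mem, mv_asIdeal, ← smul_pow',
      Ideal.smul_mem_pointwise_smul_iff]
  rcases eq_or_ne a 0 with rfl | ha
  · rw [smul_zero, map_zero, map_zero]
  have ha' : g • a ≠ 0 := by
    rwa [Ne, smul_eq_zero_iff_eq]
  apply le_antisymm
  · have h1 := (key (multiplicity w.asIdeal (Ideal.span {a}))).2
      (by rw [w.intValuation_eq_exp_neg_multiplicity ha])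
    rwa [w.intValuation_eq_exp_neg_multiplicity ha]
  · have h1 := (key (multiplicity (mv g w).asIdeal (Ideal.span {g • a}))).1
      (by rw [(mv g w).intValuation_eq_exp_neg_multiplicity ha'])
    rwa [(mv g w).intValuation_eq_exp_neg_multiplicity ha']

theorem valuation_mv (g : L ≃ₐ[F] L) (w : HeightOneSpectrum (𝓞 L)) (x : L) :
    (mv g w).valuation L (g x) = w.valuation L x := by
  obtain ⟨a, b, hb, rfl⟩ := IsFractionRing.div_surjective (A := 𝓞 L) x
  have e : ∀ a : 𝓞 L, g (algebraMap (𝓞 L) L a) = algebraMap (𝓞 L) L (g • a) := fun a => rfl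
  rw [map_div₀, e, e, map_div₀, map_div₀]
  simp only [HeightOneSpectrum.valuation_of_algebraMap, intValuation_smul]

end Vale.Agent.P024.H539
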